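import Vale.Agent.P147.Dir.Sym

/-!
One direction of escape determines the asymptotic line, and axis-symmetric laws have no
directional escape.
-/

open MeasureTheory Filter Topology Vale.Agent.P147

namespace Vale.Agent.Results.P147.AsymptoticLine

theorem result : ∀ (d : ℕ) (μ : Measure (Row d)) [IsProbabilityMeasure μ], IsElliptic μ →
    (∀ ℓ : Fin d → ℤ,
      0 < annealed μ {s | Tendsto (fun n => dotR (fun i => (ℓ i : ℝ)) (pos s n)) atTop atTop} →
      ∃ v : Fin d → ℝ, ∑ i, (ℓ i : ℝ) * v i = 1 ∧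
        (∀ᵐ s ∂annealed μ,
          (Tendsto (fun n => dotR (fun i => (ℓ i : ℝ)) (pos s n)) atTop atTop ∨
            Tendsto (fun n => dotR (fun i => (ℓ i : ℝ)) (pos s n)) atTop atBot) ∧
          ∀ j, Tendsto (fun n => (pos s n j : ℝ) / dotR (fun i => (ℓ i : ℝ)) (pos s n))
            atTop (𝓝 (v j))) ∧
        (∀ u : Fin d → ℝ, ∑ i, u i * v i = 0 →
          annealed μ {s | Tendsto (fun n => dotR u (pos s n)) atTop atTop} = 0) ∧
        (∀ u : Fin d → ℝ, 0 < ∑ i, u i * v i →
          annealed μ {s | Tendsto (fun n => dotR u (pos s n)) atTop atTop} =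
            annealed μ {s | Tendsto (fun n => dotR (fun i => (ℓ i : ℝ)) (pos s n)) atTop atTop} ∧
          annealed μ ({s | Tendsto (fun n => dotR u (pos s n)) atTop atTop} ∪
            {s | Tendsto (fun n => dotR u (pos s n)) atTop atBot}) = 1) ∧
        (annealed μ {s | Tendsto (fun n => dotR (fun i => (ℓ i : ℝ)) (pos s n)) atTop atTop} = 1 →
          ∀ u : Fin d → ℝ,
            annealed μ {s | Tendsto (fun n => dotR u (pos s n)) atTop atTop} = 0 ∨
              annealed μ {s | Tendsto (fun n => dotR u (pos s n)) atTop atTop} = 1)) ∧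
    ((∀ k : Fin d, μ.map (fun p : Row d => p.1 ∘ fun e : Dir d =>
          (e.1, if e.1 = k then !e.2 else e.2)) = μ.map Subtype.val) →
      (∀ k : Fin d, ∃ j, j ≠ k ∧ μ.map (fun p : Row d => p.1 ∘ fun e : Dir d =>
          (Equiv.swap j k e.1, e.2)) = μ.map Subtype.val) →
      ∀ u : Fin d → ℝ, annealed μ {s | Tendsto (fun n => dotR u (pos s n)) atTop atTop} = 0) := by
  intro d μ _ he
  refine ⟨fun ℓ hℓ => ?_, fun hflip hswap u => symmetric_null he hflip hswap u⟩
  have hneg : (fun i => ((-ℓ) i : ℝ)) = -fun i => (ℓ i : ℝ) := funext fun i => by simp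
  have hA : annealed μ (Ap ℓ) ≠ 0 := by
    rw [← AR_intCast]; exact hℓ.ne'
  obtain ⟨v, hv, hline, hortho⟩ := exists_line he hA
  refine ⟨v, hv, ?_, hortho, fun u hu => ?_, fun h1 u => zero_one_transfer he (ℓ := ℓ) ?_ u⟩
  · rw [ae_iff]
    refine measure_mono_null (fun s hs => ?_) hline
    intro hc
    refine hs ?_
    have hc' : (s ∈ Ap ℓ ∧ s ∈ HasDir ℓ v) ∨ (s ∈ Ap (-ℓ) ∧ s ∈ HasDir (-ℓ) (-v)) := hc
    rcases hc' with ⟨h1, h2⟩ | ⟨h1, h2⟩
    · refine ⟨Or.inl ?_, fun j => ?_⟩
      · rw [← AR_intCast] at h1; exact h1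
      · simpa [dotR_intCast] using h2 j
    · refine ⟨Or.inr ?_, fun j => ?_⟩
      · rw [← AR_intCast, hneg, AR_neg] at h1; exact h1
      · have h3 := (h2 j).neg
        simpa [dotR_intCast, lev_neg_left, div_neg] using h3
  · obtain ⟨e1, e2⟩ := line_consequences hline hu
    refine ⟨?_, ?_⟩
    · rw [← AR_intCast] at e1; exact e1
    · rw [AR_neg] at e2; exact e2
  · rw [← AR_intCast]; exact h1

end Vale.Agent.Results.P147.AsymptoticLine
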