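import Vale.Agent.P147.Law.Main
import Vale.Agent.P147.Real.Line

/-!
The directional zero-one law in every dimension and every real direction.
-/

open MeasureTheory Filter Vale.Agent.P147

namespace Vale.Agent.Results.P147.ZeroOneLaw

theorem result : ∀ (d : ℕ) (μ : Measure (Row d)) [IsProbabilityMeasure μ], IsElliptic μ →
    ∀ ℓ : Fin d → ℝ,
      annealed μ {s | Tendsto (fun n => dotR ℓ (pos s n)) atTop atTop} = 0 ∨
      annealed μ {s | Tendsto (fun n => dotR ℓ (pos s n)) atTop atTop} = 1 := by
  intro d μ _ he ℓ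
  rcases eq_or_ne (annealed μ (AR ℓ)) 0 with h | h
  · exact Or.inl h
  · obtain ⟨w, hw⟩ := Re.exists_int_of_AR he h
    exact Law.zero_one_of_int he w hw ℓ

end Vale.Agent.Results.P147.ZeroOneLaw
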